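import Vale.Agent.P182.H735.Input
import Vale.Agent.P182.H62.SubQuo

/-!
# Calculus of `Hom` and `Ext` for sub- and quotient bundles; the largest subobject
-/

set_option linter.unusedSectionVars false
set_option linter.unusedVariables false

namespace Vale.Agent.P182.H735

open LinearMap Submodule Module Vale.Agent.P182 Vale.Agent.P182.H430 Vale.Agent.P182.H388
  Vale.Agent.P182.H578

variable {k F P : Type*} [Field k] [Field F] [Algebra k F] {C : Curve k F P}
variable {E : Type*} [AddCommGroup E] [Module F E] [Module k E] [IsScalarTower k F E]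
  [FiniteDimensional F E]
variable {W : Type*} [AddCommGroup W] [Module F W] [Module k W] [IsScalarTower k F W]
  [FiniteDimensional F W]
variable {U : Type*} [AddCommGroup U] [Module F U] [Module k U] [IsScalarTower k F U]
  [FiniteDimensional F U]
variable {T : Type*} [AddCommGroup T] [Module F T] [Module k T] [IsScalarTower k F T]
  [FiniteDimensional F T]

section calculus

/-- equality in a quotient -/
theorem mkQ_eq_iff {F U : Type*} [Field F] [AddCommGroup U] [Module F U] {X : Submodule F U}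
    {a b : U} : X.mkQ a = X.mkQ b ↔ a - b ∈ X := Submodule.Quotient.eq X

theorem mkQ_eq_zero_iff {F U : Type*} [Field F] [AddCommGroup U] [Module F U]
    {X : Submodule F U} {a : U} : X.mkQ a = 0 ↔ a ∈ X := Submodule.Quotient.mk_eq_zero X

theorem noHom_iff {A : Bun C E} {B : Bun C U} : NoHom A B ↔ h0 (A.hom B).lat = 0 :=
  h0_eq_zero_iff.symm

theorem kMor_iff {κ : P → ℤ} {A : Bun C E} {B : Bun C U} {f : E →ₗ[F] U} :
    KMor κ A B f ↔ f ∈ HZ ((A.hom B).tw κ) := by
  rw [mem_HZ]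
  refine forall_congr' fun p => ?_
  show _ ↔ f ∈ ((A.ch p).hom (B.ch p)).L (-κ p)
  rw [LChain.mem_hom]
  rfl

/-- Serre duality -/
theorem noExt_iff {κ : P → ℤ} (hκ : Dualizing C κ) {A : Bun C E} {B : Bun C U} :
    NoExt κ A B ↔ h1 (A.hom B).lat = 0 := by
  have h := (DPair.hom A B).serre hκ
  rw [← h.2.1]
  have h3 := h.1.fin0
  constructor
  · intro h4
    have hs : Subsingleton (HZ ((B.hom A).tw κ)) := by
      refine ⟨fun a b => Subtype.ext ?_⟩
      rw [h4 _ (kMor_iff.2 a.2), h4 _ (kMor_iff.2 b.2)]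
    exact finrank_zero_iff.2 hs
  · intro h4 f hf
    have hs : Subsingleton (HZ ((B.hom A).tw κ)) := finrank_zero_iff.1 h4
    have h5 : (⟨f, kMor_iff.1 hf⟩ : HZ ((B.hom A).tw κ)) = 0 := Subsingleton.elim _ _
    exact congrArg Subtype.val h5

/-- `Hom (X, M) = 0 = Ext (S, M)` implies `Ext (S / X, M) = 0` -/
theorem noExt_quo {κ : P → ℤ} (hκ : Dualizing C κ) {S : Bun C U} {M : Bun C W}
    {X : Submodule F U} (h : NoHom (S.sub X) M) (h' : NoExt κ S M) : NoExt κ (S.quo X) M := by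
  rw [noHom_iff] at h
  rw [noExt_iff hκ] at h' ⊢
  have h1' := (mor_subtype S X).h1_pre_le X.injective_subtype M
  have h2 := (mor_mkQ S X).h0_pre_le X.mkQ_surjective M
  have h3 := chi_hom_left S X M
  unfold chi at h3
  omega

/-- a morphism vanishing on `X`, composed with `u : K → S / X` -/
theorem lift_mor (ν : P → ℤ) {S : Bun C U} {X Y : Submodule F U} {M : Bun C W}
    (hXY : X ≤ Y) {f : Y →ₗ[F] W} (hf : Mor (S.sub Y) M f)
    (hfX : ∀ y : Y, (y : U) ∈ X → f y = 0) {K : Bun C T} {u : T →ₗ[F] U ⧸ X}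
    (hu : KMor ν K (S.quo X) u) (hr : ∀ t, ∀ y : U, X.mkQ y = u t → y ∈ Y) :
    ∃ g : T →ₗ[F] W, KMor ν K M g ∧ ∀ t (y : Y), X.mkQ y = u t → g t = f y := by
  obtain ⟨s, hs⟩ := X.mkQ.exists_rightInverse_of_surjective (LinearMap.range_eq_top.2
    X.mkQ_surjective)
  have hs' : ∀ x, X.mkQ (s x) = x := fun x => LinearMap.congr_fun hs x
  have key : ∀ t (y : Y), X.mkQ y = u t → f ⟨s (u t), hr t _ (hs' _)⟩ = f y := by
    intro t y hy
    rw [← sub_eq_zero, ← map_sub]
    apply hfX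
    show s (u t) - y ∈ X
    rw [← mkQ_eq_iff, hs', hy]
  refine ⟨f ∘ₗ ((s ∘ₗ u).codRestrict Y fun t => hr t _ (hs' _)), ?_, fun t y hy => key t y hy⟩
  intro p a t ht
  obtain ⟨y, hy, hyu⟩ := hu p a t ht
  have hyY : y ∈ Y := hr t y hyu
  have h1 := key t ⟨y, hyY⟩ hyu
  show f ⟨s (u t), hr t _ (hs' _)⟩ ∈ _
  rw [h1]
  exact hf p _ ⟨y, hyY⟩ hy

/-- twisted morphisms into `M` are zero ⇒ the same for every quotient of `S` all of whose … -/
theorem noHom_of_cover (ν : P → ℤ) {S : Bun C U} {X Y : Submodule F U} {M : Bun C W}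
    (hXY : X ≤ Y) (hX : NoHom (S.sub X) M) {f : Y →ₗ[F] W} (hf : Mor (S.sub Y) M f)
    {K : Bun C T} (hK : ∀ g, KMor ν K M g → g = 0) {u : T →ₗ[F] U ⧸ X}
    (hu : KMor ν K (S.quo X) u) (hr : ∀ t, ∀ y : U, X.mkQ y = u t → y ∈ Y) :
    ∀ t (y : Y), X.mkQ y = u t → f y = 0 := by
  have h1 : f ∘ₗ Submodule.inclusion hXY = 0 := hX _ fun p a x hx => hf p a _ hx
  obtain ⟨g, hg, hgf⟩ := lift_mor ν hXY hf (fun y hy => by
    have := LinearMap.congr_fun h1 ⟨y, hy⟩
    exact this) hu hr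
  intro t y hy
  rw [← hgf t y hy, hK g hg]
  rfl

end calculus

section largest

variable {N : Bun C E} {M : Bun C W}

theorem noHom_bot (N : Bun C E) (M : Bun C W) : NoHom (N.sub ⊥) M := by
  intro f _
  apply LinearMap.ext
  intro x
  have : x = 0 := Subsingleton.elim _ _
  rw [this, map_zero, map_zero]

theorem noHom_sup {A B : Submodule F E} (hA : NoHom (N.sub A) M) (hB : NoHom (N.sub B) M) :
    NoHom (N.sub (A ⊔ B)) M := by
  intro f hf
  have h1 : f ∘ₗ Submodule.inclusion le_sup_left = 0 := hA _ fun p a x hx => hf p a _ hx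
  have h2 : f ∘ₗ Submodule.inclusion le_sup_right = 0 := hB _ fun p a x hx => hf p a _ hx
  apply LinearMap.ext
  rintro ⟨x, hx⟩
  obtain ⟨a, ha, b, hb, rfl⟩ := Submodule.mem_sup.1 hx
  have h3 : f ⟨a + b, hx⟩ = f (Submodule.inclusion le_sup_left ⟨a, ha⟩) +
      f (Submodule.inclusion le_sup_right ⟨b, hb⟩) := by
    rw [← map_add]; rfl
  rw [h3]
  have h4 := LinearMap.congr_fun h1 ⟨a, ha⟩
  have h5 := LinearMap.congr_fun h2 ⟨b, hb⟩
  simp only [LinearMap.coe_comp, Function.comp_apply, LinearMap.zero_apply] at h4 h5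
  rw [h4, h5]; simp

omit [Module k E] [IsScalarTower k F E] in
/-- a predicate on subspaces that is stable under sums has a largest element -/
theorem exists_largest_of {F E : Type*} [Field F] [AddCommGroup E] [Module F E]
    [FiniteDimensional F E] (Q : Submodule F E → Prop) (h0 : Q ⊥)
    (hs : ∀ A B, Q A → Q B → Q (A ⊔ B)) : ∃ A, Q A ∧ ∀ G, Q G → G ≤ A := by
  classical
  have hne : ∃ n, ∃ A, Q A ∧ finrank F E - finrank F A = n := ⟨_, ⊥, h0, rfl⟩
  obtain ⟨A, hA, hAn⟩ := Nat.find_spec hne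
  refine ⟨A, hA, fun G hG => ?_⟩
  have h1 : A ≤ A ⊔ G := le_sup_left
  have h2 := Nat.find_min' hne ⟨A ⊔ G, hs _ _ hA hG, rfl⟩
  have h3 := Submodule.finrank_le (A ⊔ G)
  have h4 := Submodule.finrank_mono h1
  have h5 : finrank F A = finrank F (A ⊔ G : Submodule F E) := by omega
  have h6 : A = A ⊔ G := Submodule.eq_of_le_of_finrank_eq h1 h5
  rw [h6]
  exact le_sup_right

theorem exists_largest (N : Bun C E) (M : Bun C W) : ∃ A, Lg N M A := by
  obtain ⟨A, h1, h2⟩ := exists_largest_of (fun A => NoHom (N.sub A) M) (noHom_bot N M)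
    (fun A B hA hB => noHom_sup hA hB)
  exact ⟨A, h1, h2⟩

variable {A : Submodule F E}

/-- MAX, twisted form -/
theorem Lg.noKMor_quo (h : Lg N M A) (ν : P → ℤ) {K : Bun C T}
    (hK : ∀ g, KMor ν K M g → g = 0) : ∀ u, KMor ν K (N.quo A) u → u = 0 := by
  intro u hu
  let G : Submodule F E := (LinearMap.range u).comap A.mkQ
  have hAG : A ≤ G := by
    intro a ha
    show A.mkQ a ∈ LinearMap.range u
    have : A.mkQ a = 0 := by simpa using ha
    rw [this]; exact zero_mem _
  have hG : NoHom (N.sub G) M := by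
    intro f hf
    have h1 := noHom_of_cover ν hAG h.no hf hK hu (fun t y hy => ⟨t, hy.symm⟩)
    apply LinearMap.ext
    rintro ⟨y, t, ht⟩
    exact h1 t ⟨y, t, ht⟩ ht.symm
  have h2 : G ≤ A := h.max G hG
  apply LinearMap.ext
  intro t
  obtain ⟨y, hy⟩ := A.mkQ_surjective (u t)
  have h3 : y ∈ A := h2 ⟨t, hy.symm⟩
  rw [← hy]
  simpa using h3

omit [FiniteDimensional F E] [IsScalarTower k F E] [FiniteDimensional F U] [IsScalarTower k F U] in
theorem kMor_zero {A : Bun C E} {B : Bun C U} {f : E →ₗ[F] U} :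
    KMor (fun _ => 0) A B f ↔ Mor A B f := by
  unfold KMor Mor
  simp only [sub_zero]

/-- MAX -/
theorem Lg.noHom_quo (h : Lg N M A) {K : Bun C T} (hK : NoHom K M) : NoHom K (N.quo A) := by
  intro u hu
  exact h.noKMor_quo (fun _ => 0) (fun g hg => hK g (kMor_zero.1 hg)) u (kMor_zero.2 hu)

end largest

section transpose

variable {M : Bun C W} {q : LinearMap.BilinForm F W}

omit [FiniteDimensional F W] [IsScalarTower k F W] [FiniteDimensional F U] [FiniteDimensional F E]
  [IsScalarTower k F E] [IsScalarTower k F U] in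
/-- transposition: `Ext (Z, M) = 0` implies `Hom (Z^*, M K) = 0` -/
theorem noKMor_dual {κ : P → ℤ} (oM : OrthS (fun _ => 0) M q) {Z : Bun C T}
    (hZ : NoExt κ Z M) : ∀ g : Dual F T →ₗ[F] W, KMor κ Z.dual M g → g = 0 := by
  intro g hg
  let gt : W →ₗ[F] T := (Module.evalEquiv F T).symm.toLinearMap ∘ₗ
    ((LinearMap.lcomp F F g) ∘ₗ q.flip)
  have hgt : ∀ (w : W) (ξ : Dual F T), ξ (gt w) = q (g ξ) w := by
    intro w ξ
    have h1 : Module.evalEquiv F T (gt w) = (LinearMap.lcomp F F g) (q.flip w) :=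
      LinearEquiv.apply_symm_apply _ _
    have h2 := LinearMap.congr_fun h1 ξ
    exact h2
  have h0 : gt = 0 := by
    apply hZ
    intro p a w hw
    rw [LChain.mem_iff_dual]
    intro c ξ hξ
    rw [hgt]
    have h1 := (oM.dual p _ _).1 (hg p c ξ hξ) a w hw
    have h2 : c - κ p + a + 0 = a - κ p + c := by ring
    rwa [h2] at h1
  apply LinearMap.ext
  intro ξ
  apply oM.nd
  intro w
  rw [← hgt, h0]
  simp

end transpose

end Vale.Agent.P182.H735
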