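import Vale.Agent.P182.H388.EB

/-!
# The exclusion of case (B2): the input structure
-/

namespace Vale.Agent.P182.H735

open LinearMap Submodule Module Vale.Agent.P182 Vale.Agent.P182.H430 Vale.Agent.P182.H388
  Vale.Agent.P182.H578

variable {k F P : Type*} [Field k] [Field F] [Algebra k F] {C : Curve k F P}
variable {E : Type*} [AddCommGroup E] [Module F E] [Module k E] [IsScalarTower k F E]
  [FiniteDimensional F E]
variable {W : Type*} [AddCommGroup W] [Module F W] [Module k W] [IsScalarTower k F W]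
  [FiniteDimensional F W]
variable {U : Type*} [AddCommGroup U] [Module F U] [Module k U] [IsScalarTower k F U]
  [FiniteDimensional F U]

/-- twisted morphisms `A → B K` -/
def KMor (κ : P → ℤ) (A : Bun C E) (B : Bun C U) (f : E →ₗ[F] U) : Prop :=
  ∀ p a x, x ∈ (A.ch p).L a → f x ∈ (B.ch p).L (a - κ p)

/-- `Hom (A, B) = 0` -/
def NoHom (A : Bun C E) (B : Bun C U) : Prop := ∀ f, Mor A B f → f = 0

/-- `Ext (A, B) = 0`, in the Serre dual form `Hom (B, A K) = 0` -/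
def NoExt (κ : P → ℤ) (A : Bun C E) (B : Bun C U) : Prop := ∀ f, KMor κ B A f → f = 0

/-- a bundle with a perfect symmetric form of shift `ν` -/
structure OrthS (ν : P → ℤ) (N : Bun C E) (b : LinearMap.BilinForm F E) : Prop where
  dual : ∀ p a x, x ∈ (N.ch p).L a ↔
    ∀ c y, y ∈ (N.ch p).L c → b x y ∈ (C.pl p).M (C.per p) (a + c + ν p)
  symm : ∀ x y, b x y = b y x
  nd : ∀ x, (∀ y, b x y = 0) → x = 0

/-- `H⁰ (Λ² S^*)` -/
def SkF (S : Bun C U) : Submodule k (LinearMap.BilinForm F U) where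
  carrier := {c | (∀ u v, c u v = - c v u) ∧ ∀ p a b u v, u ∈ (S.ch p).L a → v ∈ (S.ch p).L b →
    c u v ∈ (C.pl p).M (C.per p) (a + b)}
  add_mem' := by
    rintro c d ⟨hc, hc'⟩ ⟨hd, hd'⟩
    refine ⟨fun u v => ?_, fun p a b u v hu hv => ?_⟩
    · rw [LinearMap.add_apply, LinearMap.add_apply, LinearMap.add_apply, LinearMap.add_apply,
        hc u v, hd u v]; ring
    · exact add_mem (hc' p a b u v hu hv) (hd' p a b u v hu hv)
  zero_mem' := ⟨fun u v => by simp, fun p a b u v _ _ => zero_mem _⟩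
  smul_mem' := by
    rintro r c ⟨hc, hc'⟩
    refine ⟨fun u v => ?_, fun p a b u v hu hv => ?_⟩
    · rw [LinearMap.smul_apply, LinearMap.smul_apply, LinearMap.smul_apply, LinearMap.smul_apply,
        hc u v, smul_neg]
    · rw [LinearMap.smul_apply, LinearMap.smul_apply]
      exact Submodule.smul_mem _ _ (hc' p a b u v hu hv)

/-- THE INPUT (H): `N` on the `N`-side (shift `κ`), `M`, `S` on the `V`-side (shift `0`). -/
structure Inp (κ : P → ℤ) (N : Bun C E) (b : LinearMap.BilinForm F E) (M : Bun C W)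
    (q : LinearMap.BilinForm F W) (S : Bun C U) (x : E →ₗ[F] U) (φ : E →ₗ[F] W) : Prop where
  hκ : Dualizing C κ
  oN : OrthS κ N b
  oM : OrthS (fun _ => 0) M q
  /-- nilpotent symmetric / skew Higgs fields of `N` vanish (N1, N4) -/
  nil : ∀ ε : F, (ε = 1 ∨ ε = -1) → ∀ Θ ∈ adj b ε, KMor κ N N Θ → IsNilpotent Θ → Θ = 0
  mx : Mor N S x
  mφ : Mor N M φ
  /-- `Hom (N, M) = k φ` -/
  hφ : ∀ f, Mor N M f → ∃ c : k, f = c • φ
  /-- `φ φ^* ≠ 0` -/
  φφ : ∀ φs : W →ₗ[F] E, (∀ w e, b (φs w) e = q w (φ e)) → φ ∘ₗ φs ≠ 0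
  /-- `Ext (S, M) = 0` -/
  ext : NoExt κ S M
  /-- `C = H⁰ (Λ² S^*) ≠ 0` -/
  hC : ∃ c ∈ SkF S, c ≠ 0
  /-- every element of `Hom (N, S^*)` is `c x`, `c ∈ C` -/
  hz : ∀ z : E →ₗ[F] U →ₗ[F] F, (∀ p a c e u, e ∈ (N.ch p).L a → u ∈ (S.ch p).L c →
    z e u ∈ (C.pl p).M (C.per p) (a + c)) → ∃ c ∈ SkF S, ∀ e u, z e u = c (x e) u
  /-- `x^* c x = 0` implies `c = 0` -/
  inj : ∀ c ∈ SkF S, (∀ e e', c (x e) (x e') = 0) → c = 0

/-- `A` is the LARGEST subobject of `N` with `Hom (A, M) = 0` -/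
structure Lg (N : Bun C E) (M : Bun C W) (A : Submodule F E) : Prop where
  no : NoHom (N.sub A) M
  max : ∀ G : Submodule F E, NoHom (N.sub G) M → G ≤ A

/-- THE OUTPUT of the process: a quotient `S̄ = S / X` for which (H) holds again and
`Hom (A, S̄) = k x̄`, `Hom (N / A, S̄) = 0`. -/
structure Red (N : Bun C E) (S : Bun C U) (x : E →ₗ[F] U) (A : Submodule F E) : Prop where
  one : ∀ u, Mor (N.sub A) S u → ∃ α : k, u = α • (x ∘ₗ A.subtype)
  no : NoHom (N.quo A) S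

end Vale.Agent.P182.H735
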