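import Vale.Agent.P182.H983.GDef

/-!
# The parity of the correction term of the two-section flow

`BBf Q S T Td ξ ξ' ξd ξd'` is the correction term of the flow; `U`, `U'` are two blocks, the family
`τ` pairs with `U` like `ui • t` and with `U'` like `uj • t`; then the correction term at `τ` is
`ui * uj` times an expression at `t`, and this expression is `c • T - c' • Td` modulo `I ⊗ W`.
-/

namespace Vale.Agent.P182.H735

open Module Matrix Vale.Agent.P182.H533 Vale.Agent.P182.B1 Vale.Agent.P182.H922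
  Vale.Agent.P182.H578 Vale.Agent.P182.H588 Vale.Agent.P182.H181 Vale.Agent.P182.H983

section alg

variable {L V : Type*} [Field L] [AddCommGroup V] [Module L V]

/-- `Σ_b Q_b ξ_b` -/
def thQ (Q ξ : Fin 3 → End L V) : End L V := ∑ b, Q b * ξ b

theorem thQ_apply (Q ξ : Fin 3 → End L V) (v : V) : thQ Q ξ v = ∑ b, Q b (ξ b v) := by
  rw [thQ, LinearMap.sum_apply]
  rfl

/-- the correction term of the two-section flow -/
def BBf (Q S T Td ξ ξ' ξd ξd' : Fin 3 → End L V) (a : Fin 3) : End L V :=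
  thQ Q ξ * T a - thQ Q ξ' * Td a +
    ∑ c, ((Q c - thQ Q ξ * S c) * T c * ξd' a - (Q c - thQ Q ξ' * S c) * Td c * ξd a)

theorem BBf_apply (Q S T Td ξ ξ' ξd ξd' : Fin 3 → End L V) (a : Fin 3) (x : V) :
    BBf Q S T Td ξ ξ' ξd ξd' a x = thQ Q ξ (T a x) - thQ Q ξ' (Td a x) +
      ∑ c, ((Q c (T c (ξd' a x)) - thQ Q ξ (S c (T c (ξd' a x)))) -
        (Q c (Td c (ξd a x)) - thQ Q ξ' (S c (Td c (ξd a x))))) := by
  rw [BBf, LinearMap.add_apply, LinearMap.sub_apply, LinearMap.sum_apply]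
  rfl

variable {q : V →ₗ[L] V →ₗ[L] L}

/-- a tensor in `U ⊗ U'` applied to vectors related on `U'` -/
theorem ten_rel (hq : IsForm q) {U U' : Submodule L V} {T : End L V} (hT : T ∈ Ten q U U')
    {c : L} {x x' : V} (h : ∀ w ∈ U', q w x' = c * q w x) : T x' = c • T x := by
  have h1 : x' - c • x ∈ perp q U' := by
    intro w hw
    rw [hq.symm, map_sub, map_smul, h w hw, smul_eq_mul, sub_self]
  have h2 := hT.2 _ h1
  rw [map_sub, map_smul, sub_eq_zero] at h2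
  exact h2

/-- the adjoint of an operator preserving `U` respects the relation on `U` -/
theorem adj_rel {U : Submodule L V} {X X' : End L V} (hX : ∀ w ∈ U, X w ∈ U)
    (hX' : IsAdj q X X') {c : L} {x x' : V} (h : ∀ w ∈ U, q w x' = c * q w x) :
    ∀ w ∈ U, q w (X' x') = c * q w (X' x) := fun w hw => by
  rw [← hX' w x', ← hX' w x, h _ (hX w hw)]

/-- the adjoint of an operator preserving `U` preserves `U^⊥` -/
theorem adj_perp (hq : IsForm q) {U : Submodule L V} {X X' : End L V} (hX : ∀ w ∈ U, X w ∈ U)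
    (hX' : IsAdj q X X') {v : V} (hv : v ∈ perp q U) : X' v ∈ perp q U := fun w hw => by
  rw [hq.symm, ← hX' w v, hq.symm]
  exact hv _ (hX w hw)

section base

variable {U U' I W : Submodule L V} {ui uj : L} {Q Q' S S' T Td ξ ξ' ξd ξd' : Fin 3 → End L V}

theorem thQ_base {u : L} (hξ : ∀ a, ∀ w ∈ U, ξ a w ∈ U)
    (hQ : ∀ c, ∀ w ∈ U, Q' c w = u • Q c w) {w : V} (hw : w ∈ U) :
    thQ Q' ξ w = u • thQ Q ξ w := by
  rw [thQ_apply, thQ_apply, Finset.smul_sum]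
  exact Finset.sum_congr rfl fun b _ => hQ b _ (hξ b w hw)

/-- **The correction term at another base.** -/
theorem BBf_base (hq : IsForm q) (hT : ∀ a, T a ∈ Ten q U U') (hTd : ∀ a, Td a ∈ Ten q U' U)
    (hξ : ∀ a, ∀ w ∈ U, ξ a w ∈ U) (hξ' : ∀ a, ∀ w ∈ U', ξ' a w ∈ U')
    (hξd : ∀ a, IsAdj q (ξ a) (ξd a)) (hξd' : ∀ a, IsAdj q (ξ' a) (ξd' a))
    (hQ : ∀ c, ∀ w ∈ U, Q' c w = ui • Q c w) (hQ' : ∀ c, ∀ w ∈ U', Q' c w = uj • Q c w)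
    (hSU : ∀ c, ∀ w ∈ U, S c w ∈ U) (hSU' : ∀ c, ∀ w ∈ U', S c w ∈ U')
    (hS : ∀ c, ∀ w ∈ U, S' c w = S c w) (hS' : ∀ c, ∀ w ∈ U', S' c w = S c w)
    {x x' : V} (hx : ∀ w ∈ U, q w x' = ui * q w x) (hx' : ∀ w ∈ U', q w x' = uj * q w x)
    (a : Fin 3) :
    BBf Q' S' T Td ξ ξ' ξd ξd' a x' = (ui * uj) • BBf Q S T Td ξ ξ' ξd ξd' a x := by
  have e1 : T a x' = uj • T a x := ten_rel hq (hT a) hx'
  have e2 : Td a x' = ui • Td a x := ten_rel hq (hTd a) hx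
  have e3 : ∀ c, T c (ξd' a x') = uj • T c (ξd' a x) := fun c =>
    ten_rel hq (hT c) (adj_rel (hξ' a) (hξd' a) hx')
  have e4 : ∀ c, Td c (ξd a x') = ui • Td c (ξd a x) := fun c =>
    ten_rel hq (hTd c) (adj_rel (hξ a) (hξd a) hx)
  rw [BBf_apply, BBf_apply, e1, e2, map_smul, map_smul, thQ_base hξ hQ ((hT a).1 x),
    thQ_base hξ' hQ' ((hTd a).1 x), smul_add, smul_sub, Finset.smul_sum]
  congr 1
  · module
  · refine Finset.sum_congr rfl fun c _ => ?_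
    have m1 := (hT c).1 (ξd' a x)
    have m2 := (hTd c).1 (ξd a x)
    rw [e3, e4, map_smul, map_smul, map_smul, map_smul, map_smul, map_smul, hQ c _ m1,
      hQ' c _ m2, hS c _ m1, hS' c _ m2, thQ_base hξ hQ (hSU c _ m1),
      thQ_base hξ' hQ' (hSU' c _ m2)]
    module

theorem thQ_near {κ : L} (hξ : ∀ a, ∀ w ∈ U, ξ a w ∈ U) (hsec : ∀ w ∈ U, ∑ b, S b (ξ b w) = w)
    (hQ : ∀ c, ∀ w ∈ U, Q c w - κ • S c w ∈ I) {w : V} (hw : w ∈ U) :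
    thQ Q ξ w - κ • w ∈ I := by
  have e : thQ Q ξ w - κ • w = ∑ b, (Q b (ξ b w) - κ • S b (ξ b w)) := by
    rw [Finset.sum_sub_distrib, ← Finset.smul_sum, hsec w hw, thQ_apply]
  rw [e]
  exact Submodule.sum_mem _ fun b _ => hQ b _ (hξ b w hw)

/-- **The correction term modulo `I ⊗ W`.** -/
theorem BBf_near (hq : IsForm q) (hUW : U ≤ W) (hUW' : U' ≤ W) (hT : ∀ a, T a ∈ Ten q U U')
    (hTd : ∀ a, Td a ∈ Ten q U' U)
    (hξ : ∀ a, ∀ w ∈ U, ξ a w ∈ U) (hξ' : ∀ a, ∀ w ∈ U', ξ' a w ∈ U')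
    (hξd : ∀ a, IsAdj q (ξ a) (ξd a)) (hξd' : ∀ a, IsAdj q (ξ' a) (ξd' a))
    (hsec : ∀ w ∈ U, ∑ b, S b (ξ b w) = w) (hsec' : ∀ w ∈ U', ∑ b, S b (ξ' b w) = w)
    (hSU : ∀ c, ∀ w ∈ U, S c w ∈ U) (hSU' : ∀ c, ∀ w ∈ U', S c w ∈ U') {κ κ' : L}
    (hQ : ∀ c, ∀ w ∈ U, Q c w - κ • S c w ∈ I) (hQ' : ∀ c, ∀ w ∈ U', Q c w - κ' • S c w ∈ I)
    (a : Fin 3) :
    BBf Q S T Td ξ ξ' ξd ξd' a - (κ • T a - κ' • Td a) ∈ Ten q I W := by
  refine ⟨fun v => ?_, fun v hv => ?_⟩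
  · have m1 := thQ_near hξ hsec hQ ((hT a).1 v)
    have m2 := thQ_near hξ' hsec' hQ' ((hTd a).1 v)
    have m3 : ∀ c, Q c (T c (ξd' a v)) - thQ Q ξ (S c (T c (ξd' a v))) ∈ I := fun c => by
      have h1 := hQ c _ ((hT c).1 (ξd' a v))
      have h2 := thQ_near hξ hsec hQ (hSU c _ ((hT c).1 (ξd' a v)))
      have := I.sub_mem h1 h2
      convert this using 1
      abel
    have m4 : ∀ c, Q c (Td c (ξd a v)) - thQ Q ξ' (S c (Td c (ξd a v))) ∈ I := fun c => by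
      have h1 := hQ' c _ ((hTd c).1 (ξd a v))
      have h2 := thQ_near hξ' hsec' hQ' (hSU' c _ ((hTd c).1 (ξd a v)))
      have := I.sub_mem h1 h2
      convert this using 1
      abel
    have m5 : ∑ c, ((Q c (T c (ξd' a v)) - thQ Q ξ (S c (T c (ξd' a v)))) -
        (Q c (Td c (ξd a v)) - thQ Q ξ' (S c (Td c (ξd a v))))) ∈ I :=
      Submodule.sum_mem _ fun c _ => I.sub_mem (m3 c) (m4 c)
    have := I.add_mem (I.sub_mem m1 m2) m5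
    convert this using 1
    rw [LinearMap.sub_apply, BBf_apply, LinearMap.sub_apply, LinearMap.smul_apply,
      LinearMap.smul_apply]
    abel
  · have p1 : v ∈ perp q U := fun w hw => hv w (hUW hw)
    have p2 : v ∈ perp q U' := fun w hw => hv w (hUW' hw)
    have e3 : ∀ c, T c (ξd' a v) = 0 := fun c =>
      (hT c).2 _ (adj_perp hq (hξ' a) (hξd' a) p2)
    have e4 : ∀ c, Td c (ξd a v) = 0 := fun c =>
      (hTd c).2 _ (adj_perp hq (hξ a) (hξd a) p1)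
    rw [LinearMap.sub_apply, BBf_apply, LinearMap.sub_apply, LinearMap.smul_apply,
      LinearMap.smul_apply, (hT a).2 v p2, (hTd a).2 v p1]
    simp [e3, e4]

end base

end alg

section cfg

variable {L V J : Type*} [Field L] [AddCommGroup V] [Module L V] [Fintype J] [DecidableEq J]
  {𝒟 : Cfg L V J} {t τ τ' r : J → V} {U U' I W : Submodule L V} {ui uj k k' : L}
  {T Td ξ ξ' ξd ξd' : Fin 3 → End L V} {Γ : End L V}

/-- the mixed operators of `r` and `t` -/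
noncomputable def Qr (𝒟 : Cfg L V J) (r t : J → V) (c : Fin 3) : End L V :=
  opr 𝒟.q (Tt L r) (Gm 𝒟.arm 𝒟.Ω c) (Tt L t)

theorem Qr_base (hG : 𝒟.Good) {u : L} (h : ∀ w ∈ U, ∀ l, 𝒟.q w (τ l) = u * 𝒟.q w (t l))
    (c : Fin 3) {w : V} (hw : w ∈ U) : Qr 𝒟 r τ c w = u • Qr 𝒟 r t c w := by
  rw [← map_smul]
  refine opr_congr hG (fun l => ?_) r c
  rw [h w hw l, map_smul, LinearMap.smul_apply, smul_eq_mul]

omit [DecidableEq J] in
theorem q_om_base {u : L} (h : ∀ w ∈ U, ∀ l, 𝒟.q w (τ l) = u * 𝒟.q w (t l)) {w : V}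
    (hw : w ∈ U) (l : J) : 𝒟.q w (𝒟.om τ l) = u * 𝒟.q w (𝒟.om t l) := by
  have := q_om (𝒟 := 𝒟) (t := t) (R := τ) (x := w) (y := u • w)
    (fun l => by rw [h w hw l, map_smul, LinearMap.smul_apply, smul_eq_mul]) l
  rw [this, map_smul, LinearMap.smul_apply, smul_eq_mul]

/-- **PARITY LEMMA (P2), one base**: the correction term at the base `τ` is the triple `Z` on the
families `t`, `om t`. -/
theorem par_fam (hG : 𝒟.Good) (hT : ∀ a, T a ∈ Ten 𝒟.q U U') (hTd : ∀ a, Td a ∈ Ten 𝒟.q U' U)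
    (hξ : ∀ a, ∀ w ∈ U, ξ a w ∈ U) (hξ' : ∀ a, ∀ w ∈ U', ξ' a w ∈ U')
    (hξd : ∀ a, IsAdj 𝒟.q (ξ a) (ξd a)) (hξd' : ∀ a, IsAdj 𝒟.q (ξ' a) (ξd' a))
    (hτ : ∀ w ∈ U, ∀ l, 𝒟.q w (τ l) = ui * 𝒟.q w (t l))
    (hτ' : ∀ w ∈ U', ∀ l, 𝒟.q w (τ l) = uj * 𝒟.q w (t l)) {S : Fin 3 → End L V}
    (hSU : ∀ c, ∀ w ∈ U, S c w ∈ U) (hSU' : ∀ c, ∀ w ∈ U', S c w ∈ U')
    (hS : ∀ c, ∀ w ∈ U, Res 𝒟 τ c w = S c w) (hS' : ∀ c, ∀ w ∈ U', Res 𝒟 τ c w = S c w)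
    (l : J) :
    BBf (Qr 𝒟 r τ) (Res 𝒟 τ) T Td ξ ξ' ξd ξd' (𝒟.arm l) (τ l) =
      ((ui * uj) • BBf (Qr 𝒟 r t) S T Td ξ ξ' ξd ξd' (𝒟.arm l)) (t l) ∧
    BBf (Qr 𝒟 r τ) (Res 𝒟 τ) T Td ξ ξ' ξd ξd' (𝒟.arm l) (𝒟.om τ l) =
      ((ui * uj) • BBf (Qr 𝒟 r t) S T Td ξ ξ' ξd ξd' (𝒟.arm l)) (𝒟.om t l) := by
  rw [LinearMap.smul_apply, LinearMap.smul_apply]
  exact ⟨BBf_base hG.form hT hTd hξ hξ' hξd hξd' (fun c w hw => Qr_base hG hτ c hw)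
      (fun c w hw => Qr_base hG hτ' c hw) hSU hSU' hS hS' (fun w hw => hτ w hw l)
      (fun w hw => hτ' w hw l) _,
    BBf_base hG.form hT hTd hξ hξ' hξd hξd' (fun c w hw => Qr_base hG hτ c hw)
      (fun c w hw => Qr_base hG hτ' c hw) hSU hSU' hS hS' (fun w hw => q_om_base hτ hw l)
      (fun w hw => q_om_base hτ' hw l) _⟩

/-- **PARITY LEMMA (P2), the leading term.** -/
theorem par_near (hG : 𝒟.Good) (hUW : U ≤ W) (hUW' : U' ≤ W)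
    (hSI : ∀ a, ∀ w ∈ I, Res 𝒟 t a w ∈ I)
    (hT : ∀ a, T a ∈ Ten 𝒟.q U U') (hTd : ∀ a, Td a ∈ Ten 𝒟.q U' U)
    (hξ : ∀ a, ∀ w ∈ U, ξ a w ∈ U) (hξ' : ∀ a, ∀ w ∈ U', ξ' a w ∈ U')
    (hξd : ∀ a, IsAdj 𝒟.q (ξ a) (ξd a)) (hξd' : ∀ a, IsAdj 𝒟.q (ξ' a) (ξd' a))
    {S : Fin 3 → End L V} (hsec : ∀ w ∈ U, ∑ b, S b (ξ b w) = w)
    (hsec' : ∀ w ∈ U', ∑ b, S b (ξ' b w) = w)
    (hSU : ∀ c, ∀ w ∈ U, S c w ∈ U) (hSU' : ∀ c, ∀ w ∈ U', S c w ∈ U')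
    (hui : ui ≠ 0) (huj : uj ≠ 0)
    (hS : ∀ c, ∀ w ∈ U, S c w = (ui ^ 2) • Res 𝒟 t c w)
    (hS' : ∀ c, ∀ w ∈ U', S c w = (uj ^ 2) • Res 𝒟 t c w)
    (hr : RelG 𝒟 W I t Γ r) (hk : ∀ w ∈ U, Γ w - k • w ∈ I) (hk' : ∀ w ∈ U', Γ w - k' • w ∈ I)
    (a : Fin 3) :
    (ui * uj) • BBf (Qr 𝒟 r t) S T Td ξ ξ' ξd ξd' a -
      ((k * uj / ui) • T a - (k' * ui / uj) • Td a) ∈ Ten 𝒟.q I W := by
  have key : ∀ {u c : L} {U : Submodule L V}, u ≠ 0 → U ≤ W →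
      (∀ c, ∀ w ∈ U, S c w = (u ^ 2) • Res 𝒟 t c w) → (∀ w ∈ U, Γ w - c • w ∈ I) →
      ∀ a, ∀ w ∈ U, Qr 𝒟 r t a w - (c / u ^ 2) • S a w ∈ I := by
    intro u c U hu hU hS hc a w hw
    have h1 : Qr 𝒟 r t a w - Res 𝒟 t a (Γ w) ∈ I := hr.two a w (hU hw)
    have h2 := hSI a _ (hc w hw)
    have := I.add_mem h1 h2
    convert this using 1
    rw [hS a w hw, smul_smul, div_mul_cancel₀ _ (pow_ne_zero 2 hu), map_sub, map_smul]
    abel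
  have h := (Ten 𝒟.q I W).smul_mem (ui * uj) (BBf_near hG.form hUW hUW' hT hTd hξ hξ' hξd hξd'
    hsec hsec' hSU hSU' (key hui hUW hS hk) (key huj hUW' hS' hk') a)
  convert h using 1
  rw [smul_sub, smul_sub, smul_smul, smul_smul]
  congr 3
  · field_simp
  · field_simp

end cfg

end Vale.Agent.P182.H735
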