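import Vale.Agent.P182.H735.Basic
import Vale.Agent.P182.H62.Adams

/-!
# Everything kills `A^⊥`
-/

set_option linter.unusedSectionVars false
set_option linter.unusedVariables false

namespace Vale.Agent.P182.H735

open LinearMap Submodule Module Vale.Agent.P182 Vale.Agent.P182.H430 Vale.Agent.P182.H388
  Vale.Agent.P182.H578

variable {k F P : Type*} [Field k] [Field F] [Algebra k F] {C : Curve k F P}
variable {E : Type*} [AddCommGroup E] [Module F E] [Module k E] [IsScalarTower k F E]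
  [FiniteDimensional F E]
variable {W : Type*} [AddCommGroup W] [Module F W] [Module k W] [IsScalarTower k F W]
  [FiniteDimensional F W]
variable {U : Type*} [AddCommGroup U] [Module F U] [Module k U] [IsScalarTower k F U]
  [FiniteDimensional F U]
variable {T : Type*} [AddCommGroup T] [Module F T] [Module k T] [IsScalarTower k F T]
  [FiniteDimensional F T]

section ext

theorem famSES_hom_left (A : Bun C E) (S : Submodule F E) (B : Bun C U) :
    FamSES (pre (k := k) U S.mkQ) (pre (k := k) U S.subtype)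
      ((A.quo S).hom B).lat (A.hom B).lat ((A.sub S).hom B).lat := by
  refine ⟨⟨?_, ?_, ?_⟩, ?_, ?_, (A.hom B).adm⟩
  · intro h h' e
    apply LinearMap.ext
    intro y
    obtain ⟨x, rfl⟩ := S.mkQ_surjective y
    exact LinearMap.congr_fun e x
  · ext h
    constructor
    · rintro ⟨g, rfl⟩
      rw [LinearMap.mem_ker]
      apply LinearMap.ext
      intro x
      show g (S.mkQ (x : E)) = 0
      have : S.mkQ (x : E) = 0 := by simp
      rw [this, map_zero]
    · intro h0
      have h1 : S ≤ LinearMap.ker h := fun x hx => by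
        have := LinearMap.congr_fun h0 ⟨x, hx⟩
        exact this
      exact ⟨S.liftQ h h1, by
        apply LinearMap.ext
        intro x
        rfl⟩
  · intro g
    obtain ⟨h, hh⟩ := LinearMap.exists_extend g
    exact ⟨h, hh⟩
  · intro p
    ext h
    exact LChain.hom_quo_left_iff (A.ch p) (B.ch p) S (c := 0) (φ := h)
  · intro p
    ext g
    constructor
    · rintro ⟨h, hh, rfl⟩
      exact LChain.hom_sub_mem (A.ch p) (B.ch p) S hh
    · intro hg
      exact LChain.hom_sub_surj (A.ch p) (B.ch p) S hg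

/-- `Ext (N / A, B) = 0`: morphisms `A → B` extend to `N` -/
theorem exists_extension {N : Bun C E} {A : Submodule F E} {B : Bun C U}
    (h : h1 ((N.quo A).hom B).lat = 0) {f : A →ₗ[F] U} (hf : Mor (N.sub A) B f) :
    ∃ g : E →ₗ[F] U, Mor N B g ∧ ∀ a : A, g a = f a := by
  have h1 := famSES_hom_left N A B
  have hfin := ((N.quo A).hom B).finCoh.fin1
  have hs : Subsingleton (HO ((N.quo A).hom B).lat) := finrank_zero_iff.1 h
  obtain ⟨x, hx⟩ := (h1.exact_hz3 ⟨f, mor_iff.1 hf⟩).1 (Subsingleton.elim _ _)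
  refine ⟨x, mor_iff.2 x.2, fun a => ?_⟩
  have h2 := congrArg Subtype.val hx
  rw [hzMap_coe] at h2
  exact LinearMap.congr_fun h2 a

end ext

section form

variable {b : LinearMap.BilinForm F E}

/-- the representing vector of a functional -/
noncomputable def rep (b : LinearMap.BilinForm F E) (hnd : ∀ x, (∀ y, b x y = 0) → x = 0) :
    Dual F E →ₗ[F] E :=
  (LinearMap.linearEquivOfInjective b (by
    rw [← LinearMap.ker_eq_bot, LinearMap.ker_eq_bot']
    intro x hx
    exact hnd x fun y => by rw [hx]; rfl)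
    (Subspace.dual_finrank_eq (K := F) (V := E)).symm).symm.toLinearMap

theorem rep_spec (hnd : ∀ x, (∀ y, b x y = 0) → x = 0) (η : Dual F E) (y : E) :
    b (rep b hnd η) y = η y := by
  have h := LinearEquiv.apply_symm_apply (LinearMap.linearEquivOfInjective b (by
    rw [← LinearMap.ker_eq_bot, LinearMap.ker_eq_bot']
    intro x hx
    exact hnd x fun y => by rw [hx]; rfl)
    (Subspace.dual_finrank_eq (K := F) (V := E)).symm) η
  exact LinearMap.congr_fun h y

/-- the operator of a form -/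
theorem exists_op (hnd : ∀ x, (∀ y, b x y = 0) → x = 0) (f : E →ₗ[F] E →ₗ[F] F) :
    ∃ Ξ : E →ₗ[F] E, ∀ e e', b (Ξ e) e' = f e e' :=
  ⟨rep b hnd ∘ₗ f, fun e e' => rep_spec hnd (f e) e'⟩

end form

section kill

variable {N : Bun C E} {b : LinearMap.BilinForm F E} {M : Bun C W} {q : LinearMap.BilinForm F W}
  {κ : P → ℤ} {A : Submodule F E}

theorem OrthS.isForm {ν : P → ℤ} (h : OrthS ν N b) : H533.IsForm b := ⟨h.symm, h.nd⟩

/-- `Hom (A^⊥, Z) = 0` for every `Z` with `Ext (Z, M) = 0` -/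
theorem kill_sub (oN : OrthS κ N b) (oM : OrthS (fun _ => 0) M q) (hA : Lg N M A) {Z : Bun C T}
    (hZ : NoExt κ Z M) : NoHom (N.sub (H533.perp b A)) Z := by
  intro v hv
  obtain ⟨v0, hv0⟩ := LinearMap.exists_extend v
  have hv0' : ∀ y : H533.perp b A, v0 y = v y := fun y => LinearMap.congr_fun hv0 y
  let R := rep b oN.nd
  have hR : ∀ η y, b (R η) y = η y := rep_spec oN.nd
  have hpp := H62.perp_perp oN.isForm A
  let f : Dual F T →ₗ[F] E ⧸ A := A.mkQ ∘ₗ R ∘ₗ (LinearMap.lcomp F F v0)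
  have hf : ∀ ξ : Dual F T, f ξ = A.mkQ (R (ξ ∘ₗ v0)) := fun ξ => rfl
  have h1 : KMor κ Z.dual (N.quo A) f := by
    intro p c ξ hξ
    obtain ⟨ψ, hψ, hψv⟩ := LChain.hom_sub_surj (N.ch p) (Z.ch p) (H533.perp b A) (c := 0) (φ := v)
      (fun a x hx => by rw [add_zero]; exact hv p a x hx)
    refine ((N.ch p).mem_quo A (c - κ p) (f ξ)).2 ⟨R (ξ ∘ₗ ψ), ?_, ?_⟩
    · rw [oN.dual]
      intro a y hy
      rw [hR]
      have h2 : ψ y ∈ (Z.ch p).L (a + 0) := hψ a y hy
      rw [add_zero] at h2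
      have h3 : ξ (ψ y) ∈ (C.pl p).M (C.per p) (a + c) := hξ a _ h2
      have h4 : c - κ p + a + κ p = a + c := by ring
      rw [h4]
      exact h3
    · rw [hf, mkQ_eq_iff, ← hpp]
      intro y hy
      rw [map_sub, LinearMap.sub_apply, hR, hR]
      have h5 : ψ y = v ⟨y, hy⟩ := LinearMap.congr_fun hψv ⟨y, hy⟩
      have h6 : v0 y = v ⟨y, hy⟩ := hv0' ⟨y, hy⟩
      show ξ (ψ y) - ξ (v0 y) = 0
      rw [h5, h6, sub_self]
  have h2 : f = 0 := hA.noKMor_quo κ (noKMor_dual oM hZ) f h1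
  apply LinearMap.ext
  intro y
  rw [LinearMap.zero_apply, ← Module.forall_dual_apply_eq_zero_iff F]
  intro ξ
  have h3 : A.mkQ (R (ξ ∘ₗ v0)) = 0 := by rw [← hf, h2]; rfl
  rw [mkQ_eq_zero_iff, ← hpp] at h3
  have h4 := h3 y y.2
  rw [hR] at h4
  rw [← hv0' y]
  exact h4

/-- every morphism `N → Z` kills `A^⊥` when `Ext (Z, M) = 0` -/
theorem kill (oN : OrthS κ N b) (oM : OrthS (fun _ => 0) M q) (hA : Lg N M A) {Z : Bun C T}
    (hZ : NoExt κ Z M) {w : E →ₗ[F] T} (hw : Mor N Z w) :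
    ∀ n ∈ H533.perp b A, w n = 0 := by
  intro n hn
  have h1 := kill_sub oN oM hA hZ (w ∘ₗ (H533.perp b A).subtype) fun p a x hx => hw p a x hx
  exact LinearMap.congr_fun h1 ⟨n, hn⟩

/-- `Ext (N / A, Z^*) = 0` when `Ext (Z, M) = 0` -/
theorem noExt_quo_dual (oM : OrthS (fun _ => 0) M q) (hA : Lg N M A) {Z : Bun C T}
    (hZ : NoExt κ Z M) : NoExt κ (N.quo A) Z.dual :=
  hA.noKMor_quo κ (noKMor_dual oM hZ)

open Vale.Agent.P182.H62 in
/-- `Ext (N / A, Z^*) = 0` when `Ext (Z, M) = 0`, with `Du` -/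
theorem noExt_quo_du (oM : OrthS (fun _ => 0) M q) (hA : Lg N M A) {Z : Bun C T}
    (hZ : NoExt κ Z M) : NoExt κ (N.quo A) Z.du := by
  apply hA.noKMor_quo κ
  intro g hg
  have h1 : (g ∘ₗ (Du.equiv (F := F) (E := T)).symm.toLinearMap : Dual F T →ₗ[F] W) = 0 := by
    apply noKMor_dual oM hZ
    intro p c ξ hξ
    have h2 : (Du.equiv (F := F) (E := T)).symm ξ ∈ (Z.du.ch p).L c := by
      rw [Bun.mem_du_ch]
      intro a x hx
      exact hξ a x hx
    exact hg p c _ h2
  apply LinearMap.ext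
  intro ξ
  have h2 := LinearMap.congr_fun h1 (Du.equiv ξ)
  simpa using h2

end kill

end Vale.Agent.P182.H735
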