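import Vale.Agent.P182.H534.C0b
import Vale.Agent.P182.H181.Base
import Vale.Agent.P182.H735.Par

/-!
# The field `par` of 534's `Two` and the hypothesis `hZ` of `Two.second`
-/

namespace Vale.Agent.P182.H735

open Module Matrix Vale.Agent.P182.H533 Vale.Agent.P182.B1 Vale.Agent.P182.H922
  Vale.Agent.P182.H578 Vale.Agent.P182.H588 Vale.Agent.P182.H181 Vale.Agent.P182.H983

universe u v w

variable {L : Type u} {V : Type v} {J : Type w} [Field L] [AddCommGroup V] [Module L V]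
  [Fintype J] [DecidableEq J] {𝒟 : Cfg L V J} {u : J → L} {t t' : J → V} {W I : Submodule L V}
  {k : ℕ} {U : Fin k → Submodule L V} {d : Fin k → L} {p : Fin 3 → ℕ}
  {i j : Fin k} {x y x' y' : L} {T Td ξ ξ' ξd ξd' : Fin 3 → End L V} {r : J → V}

theorem BB_eq (τ : J → V) (a : Fin 3) :
    H534.BB 𝒟 τ r T Td ξ ξ' ξd ξd' a =
      BBf (Qr 𝒟 r τ) (Res 𝒟 τ) T Td ξ ξ' ξd ξd' a := rfl

section



/-- the correction term at the base `x t + y t'`; the residues may be taken at any base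
`x0 t + y0 t'` with the same squares of the eigenvalues -/
theorem BB_tm (hG : 𝒟.Good) (hK : KRel 𝒟.arm 𝒟.q 𝒟.Ω (Tt L '' (Ku 𝒟 u : Set (J → V))))
    (B : Blk 𝒟 u t t' W I U d p)
    (hT : ∀ a, T a ∈ Ten 𝒟.q (U i) (U j)) (hTd : ∀ a, Td a ∈ Ten 𝒟.q (U j) (U i))
    (hξ : ∀ a, ∀ w ∈ U i, ξ a w ∈ U i) (hξ' : ∀ a, ∀ w ∈ U j, ξ' a w ∈ U j)
    (hξd : ∀ a, IsAdj 𝒟.q (ξ a) (ξd a)) (hξd' : ∀ a, IsAdj 𝒟.q (ξ' a) (ξd' a))
    (hi : (x' + y' * d i) ^ 2 = (x + y * d i) ^ 2) (hj : (x' + y' * d j) ^ 2 = (x + y * d j) ^ 2)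
    (a : Fin 3) (l : J) :
    H534.BB 𝒟 (tm t t' x' y') r T Td ξ ξ' ξd ξd' a (tm t t' x' y' l) =
      (((x' + y' * d i) * (x' + y' * d j)) •
        BBf (Qr 𝒟 r t) (Res 𝒟 (tm t t' x y)) T Td ξ ξ' ξd ξd' a) (t l) ∧
    H534.BB 𝒟 (tm t t' x' y') r T Td ξ ξ' ξd ξd' a (𝒟.om (tm t t' x' y') l) =
      (((x' + y' * d i) * (x' + y' * d j)) •
        BBf (Qr 𝒟 r t) (Res 𝒟 (tm t t' x y)) T Td ξ ξ' ξd ξd' a) (𝒟.om t l) := by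
  have hτ : ∀ w ∈ U i, ∀ l, 𝒟.q w (tm t t' x' y' l) = (x' + y' * d i) * 𝒟.q w (t l) :=
    fun w hw l => H181.q_tm hG B hw x' y' l
  have hτ' : ∀ w ∈ U j, ∀ l, 𝒟.q w (tm t t' x' y' l) = (x' + y' * d j) * 𝒟.q w (t l) :=
    fun w hw l => H181.q_tm hG B hw x' y' l
  have hS : ∀ c, ∀ w ∈ U i, Res 𝒟 (tm t t' x' y') c w = Res 𝒟 (tm t t' x y) c w :=
    fun c w hw => by rw [Res_tm hG hK B hw, Res_tm hG hK B hw, hi]
  have hS' : ∀ c, ∀ w ∈ U j, Res 𝒟 (tm t t' x' y') c w = Res 𝒟 (tm t t' x y) c w :=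
    fun c w hw => by rw [Res_tm hG hK B hw, Res_tm hG hK B hw, hj]
  rw [LinearMap.smul_apply, LinearMap.smul_apply, BB_eq]
  exact ⟨BBf_base hG.form hT hTd hξ hξ' hξd hξd' (fun c w hw => Qr_base hG hτ c hw)
      (fun c w hw => Qr_base hG hτ' c hw) (fun c w hw => mapU_tm hG hK B x y i c hw)
      (fun c w hw => mapU_tm hG hK B x y j c hw) hS hS' (fun w hw => hτ w hw l)
      (fun w hw => hτ' w hw l) _,
    BBf_base hG.form hT hTd hξ hξ' hξd hξd' (fun c w hw => Qr_base hG hτ c hw)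
      (fun c w hw => Qr_base hG hτ' c hw) (fun c w hw => mapU_tm hG hK B x y i c hw)
      (fun c w hw => mapU_tm hG hK B x y j c hw) hS hS' (fun w hw => q_om_base hτ hw l)
      (fun w hw => q_om_base hτ' hw l) _⟩

/-- **The field `par` of `H534.Two`.** -/
theorem two_par (hG : 𝒟.Good) (hK : KRel 𝒟.arm 𝒟.q 𝒟.Ω (Tt L '' (Ku 𝒟 u : Set (J → V))))
    (B : Blk 𝒟 u t t' W I U d p)
    (hT : ∀ a, T a ∈ Ten 𝒟.q (U i) (U j)) (hTd : ∀ a, Td a ∈ Ten 𝒟.q (U j) (U i))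
    (hξ : ∀ a, ∀ w ∈ U i, ξ a w ∈ U i) (hξ' : ∀ a, ∀ w ∈ U j, ξ' a w ∈ U j)
    (hξd : ∀ a, IsAdj 𝒟.q (ξ a) (ξd a)) (hξd' : ∀ a, IsAdj 𝒟.q (ξ' a) (ξd' a))
    (hi : x' + y' * d i = -(x + y * d i)) (hj : x' + y' * d j = x + y * d j)
    (r : J → V) (a : Fin 3) (l : J) :
    H534.BB 𝒟 (tm t t' x' y') r T Td ξ ξ' ξd ξd' a (tm t t' x' y' l) =
      -H534.BB 𝒟 (tm t t' x y) r T Td ξ ξ' ξd ξd' a (tm t t' x y l) ∧
    H534.BB 𝒟 (tm t t' x' y') r T Td ξ ξ' ξd ξd' a (𝒟.om (tm t t' x' y') l) =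
      -H534.BB 𝒟 (tm t t' x y) r T Td ξ ξ' ξd ξd' a (𝒟.om (tm t t' x y) l) := by
  have h1 := BB_tm (r := r) hG hK B hT hTd hξ hξ' hξd hξd' (x := x) (y := y) (x' := x')
    (y' := y') (by rw [hi, neg_sq]) (by rw [hj]) a l
  have h2 := BB_tm (r := r) hG hK B hT hTd hξ hξ' hξd hξd' (x := x) (y := y) (x' := x)
    (y' := y) rfl rfl a l
  rw [h1.1, h1.2, h2.1, h2.2, hi, hj, neg_mul, neg_smul, LinearMap.neg_apply,
    LinearMap.neg_apply]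
  exact ⟨rfl, rfl⟩

/-- **The hypothesis `hZ` of `H534.Two.second`.** -/
theorem two_hZ (hG : 𝒟.Good) (hK : KRel 𝒟.arm 𝒟.q 𝒟.Ω (Tt L '' (Ku 𝒟 u : Set (J → V))))
    (B : Blk 𝒟 u t t' W I U d p)
    (hT : ∀ a, T a ∈ Ten 𝒟.q (U i) (U j)) (hTd : ∀ a, Td a ∈ Ten 𝒟.q (U j) (U i))
    (hξ : ∀ a, ∀ w ∈ U i, ξ a w ∈ U i) (hξ' : ∀ a, ∀ w ∈ U j, ξ' a w ∈ U j)
    (hξd : ∀ a, IsAdj 𝒟.q (ξ a) (ξd a)) (hξd' : ∀ a, IsAdj 𝒟.q (ξ' a) (ξd' a))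
    (hsec : ∀ w ∈ U i, ∑ b, Res 𝒟 (tm t t' x y) b (ξ b w) = w)
    (hsec' : ∀ w ∈ U j, ∑ b, Res 𝒟 (tm t t' x y) b (ξ' b w) = w)
    (hi : x + y * d i ≠ 0) (hj : x + y * d j ≠ 0) {r : J → V}
    (hΓ : ∃ Γ, RelG 𝒟 W I t Γ r) :
    ∃ (Z : Fin 3 → End L V) (c c' : L), (∀ a, Z a - (c • T a - c' • Td a) ∈ Ten 𝒟.q I W) ∧
      ∀ a l,
      H534.BB 𝒟 (tm t t' x y) r T Td ξ ξ' ξd ξd' a (tm t t' x y l) = Z a (t l) ∧
      H534.BB 𝒟 (tm t t' x y) r T Td ξ ξ' ξd ξd' a (𝒟.om (tm t t' x y) l) = Z a (𝒟.om t l) := by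
  obtain ⟨Γ, hr⟩ := hΓ
  obtain ⟨c, hc⟩ := B.scal Γ hr.mapW hr.mapI hr.sa hr.comm
  refine ⟨fun a => ((x + y * d i) * (x + y * d j)) •
    BBf (Qr 𝒟 r t) (Res 𝒟 (tm t t' x y)) T Td ξ ξ' ξd ξd' a,
    c i * (x + y * d j) / (x + y * d i), c j * (x + y * d i) / (x + y * d j), fun a => ?_,
    fun a l => BB_tm hG hK B hT hTd hξ hξ' hξd hξd' rfl rfl a l⟩
  exact par_near hG (H181.U_le B i) (H181.U_le B j) (fun a w hw => H181.mapI hG B a hw) hT hTd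
    hξ hξ' hξd hξd' hsec hsec' (fun c w hw => mapU_tm hG hK B x y i c hw)
    (fun c w hw => mapU_tm hG hK B x y j c hw) hi hj (fun c w hw => Res_tm hG hK B hw x y c)
    (fun c w hw => Res_tm hG hK B hw x y c) hr (hc i) (hc j) a

end

end Vale.Agent.P182.H735
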