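import Vale.Agent.P182.H735.Kill
import Vale.Agent.P182.H899.Process
import Vale.Agent.P182.H62.Adams

/-!
# Reduction of the input: `Hom (A, S̄) = k x̄`, `Hom (N / A, S̄) = 0`
-/

set_option linter.unusedSectionVars false
set_option linter.unusedVariables false

namespace Vale.Agent.P182.H735

open LinearMap Submodule Module Vale.Agent.P182 Vale.Agent.P182.H430 Vale.Agent.P182.H388
  Vale.Agent.P182.H578

variable {k F P : Type*} [Field k] [Field F] [Algebra k F] {C : Curve k F P}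
variable {E : Type*} [AddCommGroup E] [Module F E] [Module k E] [IsScalarTower k F E]
  [FiniteDimensional F E]
variable {W : Type*} [AddCommGroup W] [Module F W] [Module k W] [IsScalarTower k F W]
  [FiniteDimensional F W]
variable {U : Type*} [AddCommGroup U] [Module F U] [Module k U] [IsScalarTower k F U]
  [FiniteDimensional F U]
variable {T : Type*} [AddCommGroup T] [Module F T] [Module k T] [IsScalarTower k F T]
  [FiniteDimensional F T]
variable {κ : P → ℤ} {N : Bun C E} {b : LinearMap.BilinForm F E} {M : Bun C W}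
  {q : LinearMap.BilinForm F W} {S : Bun C U} {x : E →ₗ[F] U} {φ : E →ₗ[F] W}
  {A : Submodule F E}

theorem mem_skF {S : Bun C U} {c : LinearMap.BilinForm F U} : c ∈ SkF S ↔
    (∀ u v, c u v = - c v u) ∧ ∀ p a b u v, u ∈ (S.ch p).L a → v ∈ (S.ch p).L b →
    c u v ∈ (C.pl p).M (C.per p) (a + b) := Iff.rfl

open Vale.Agent.P182.H62 in
/-- `SkF S` as a space of maps to the dual -/
def skD (S : Bun C U) : Submodule k (U →ₗ[F] Du F U) where
  carrier := {c | (∀ u v, c u v = - c v u) ∧ ∀ p a b u v, u ∈ (S.ch p).L a → v ∈ (S.ch p).L b →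
    c u v ∈ (C.pl p).M (C.per p) (a + b)}
  add_mem' := by
    rintro c d ⟨hc, hc'⟩ ⟨hd, hd'⟩
    refine ⟨fun u v => ?_, fun p a b u v hu hv => ?_⟩
    · rw [LinearMap.add_apply, LinearMap.add_apply, Du.add_apply, Du.add_apply,
        hc u v, hd u v]; ring
    · exact add_mem (hc' p a b u v hu hv) (hd' p a b u v hu hv)
  zero_mem' := ⟨fun u v => by simp, fun p a b u v _ _ => zero_mem _⟩
  smul_mem' := by
    rintro r c ⟨hc, hc'⟩
    have h1 : ∀ u v, (r • c) u v = r • c u v := by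
      intro u v
      rw [LinearMap.smul_apply, ← algebraMap_smul F r (c u), Du.smul_apply, Algebra.smul_def]
    refine ⟨fun u v => ?_, fun p a b u v hu hv => ?_⟩
    · rw [h1, h1, hc u v, smul_neg]
    · rw [h1]
      exact Submodule.smul_mem _ _ (hc' p a b u v hu hv)

open Vale.Agent.P182.H62 in
/-- `skD S` is finite dimensional -/
theorem finite_skD (S : Bun C U) : FiniteDimensional k (skD S) := by
  have h := (S.hom S.du).finCoh.fin0
  let i : skD S →ₗ[k] HZ (S.hom S.du).lat :=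
    { toFun := fun c => ⟨c.1, by
        rw [← mor_iff]
        intro p a u hu
        rw [Bun.mem_du_ch]
        intro b v hv
        have := c.2.2 p a b u v hu hv
        rwa [add_comm] at this⟩
      map_add' := fun _ _ => rfl
      map_smul' := fun _ _ => rfl }
  have hi : Function.Injective i := by
    intro c d hcd
    have h2 : (i c).1 = (i d).1 := congrArg Subtype.val hcd
    exact Subtype.ext h2
  exact FiniteDimensional.of_injective i hi

/-- (Ξ): a form vanishing on `A` vanishes -/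
theorem Inp.xi (I : Inp κ N b M q S x φ) (hA : Lg N M A) {c : LinearMap.BilinForm F U}
    (hc : c ∈ SkF S) (h : ∀ e ∈ A, ∀ e' ∈ A, c (x e) (x e') = 0) : c = 0 := by
  obtain ⟨Ξ, hΞ⟩ := exists_op I.oN.nd (LinearMap.compl₁₂ c x x)
  have hΞ' : ∀ e e', b (Ξ e) e' = c (x e) (x e') := hΞ
  have hpp := H62.perp_perp I.oN.isForm A
  have hx : ∀ n ∈ H533.perp b A, x n = 0 := kill I.oN I.oM hA I.ext I.mx
  have h1 : Ξ ∈ adj b (-1 : F) := by
    rw [mem_adj]
    intro e e'
    rw [hΞ', hc.1, ← hΞ', I.oN.symm]; ring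
  have h2 : KMor κ N N Ξ := by
    intro p a e he
    rw [I.oN.dual]
    intro c' e' he'
    rw [hΞ']
    have h3 := hc.2 p a c' _ _ (I.mx p a e he) (I.mx p c' e' he')
    have h4 : a - κ p + c' + κ p = a + c' := by ring
    rwa [h4]
  have hker : ∀ n ∈ H533.perp b A, Ξ n = 0 := by
    intro n hn
    apply I.oN.nd
    intro y
    rw [hΞ', hx n hn]; simp
  have him : ∀ e, Ξ e ∈ A := by
    intro e
    rw [← hpp]
    intro y hy
    rw [hΞ', hx y hy]; simp
  have him2 : ∀ a ∈ A, Ξ a ∈ H533.perp b A := by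
    intro a ha y hy
    rw [hΞ', h a ha y hy]
  have h3 : Ξ ^ 3 = 0 := by
    apply LinearMap.ext
    intro e
    show Ξ (Ξ (Ξ e)) = 0
    exact hker _ (him2 _ (him e))
  have h4 : Ξ = 0 := I.nil (-1) (Or.inr rfl) Ξ h1 h2 ⟨3, h3⟩
  apply I.inj c hc
  intro e e'
  rw [← hΞ', h4]; simp

/-- pull back of a skew form on a quotient -/
theorem skF_pull {X : Submodule F U} {c : LinearMap.BilinForm F (U ⧸ X)}
    (hc : c ∈ SkF (S.quo X)) : LinearMap.compl₁₂ c X.mkQ X.mkQ ∈ SkF S := by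
  refine ⟨fun u v => hc.1 _ _, fun p a b u v hu hv => ?_⟩
  exact hc.2 p a b _ _ ((S.ch p).mkQ_mem_quo X hu) ((S.ch p).mkQ_mem_quo X hv)

theorem exists_descend {X : Submodule F U} {c : LinearMap.BilinForm F U} (hc : c ∈ SkF S)
    (hX : ∀ v ∈ X, c v = 0) : ∃ c' ∈ SkF (S.quo X), ∀ u v, c' (X.mkQ u) (X.mkQ v) = c u v := by
  have hX' : ∀ v ∈ X, ∀ u, c u v = 0 := fun v hv u => by
    rw [hc.1, hX v hv]; simp
  have h1 : ∀ u, X ≤ LinearMap.ker (c u) := fun u v hv => hX' v hv u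
  let c1 : U →ₗ[F] (U ⧸ X →ₗ[F] F) :=
    { toFun := fun u => X.liftQ (c u) (h1 u)
      map_add' := fun u v => by
        apply LinearMap.ext
        intro y
        obtain ⟨y, rfl⟩ := X.mkQ_surjective y
        show c (u + v) y = c u y + c v y
        rw [map_add]; rfl
      map_smul' := fun r u => by
        apply LinearMap.ext
        intro y
        obtain ⟨y, rfl⟩ := X.mkQ_surjective y
        show c (r • u) y = r • c u y
        rw [map_smul]; rfl }
  have h2 : X ≤ LinearMap.ker c1 := by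
    intro v hv
    rw [LinearMap.mem_ker]
    apply LinearMap.ext
    intro y
    obtain ⟨y, rfl⟩ := X.mkQ_surjective y
    show c v y = 0
    rw [hX v hv]; rfl
  have h3 : ∀ u v, X.liftQ c1 h2 (X.mkQ u) (X.mkQ v) = c u v := fun u v => rfl
  refine ⟨X.liftQ c1 h2, ⟨?_, ?_⟩, h3⟩
  · intro u v
    obtain ⟨u, rfl⟩ := X.mkQ_surjective u
    obtain ⟨v, rfl⟩ := X.mkQ_surjective v
    rw [h3, h3, hc.1]
  · rintro p a b _ _ ⟨u, hu, rfl⟩ ⟨v, hv, rfl⟩
    exact hc.2 p a b u v hu hv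

/-- GOOD subspaces -/
structure Good (N : Bun C E) (M : Bun C W) (S : Bun C U) (x : E →ₗ[F] U) (A : Submodule F E)
    (X : Submodule F U) : Prop where
  g1 : NoHom (S.sub X) M
  g2 : ∀ d ∈ SkF S, (∀ a ∈ A, ∀ v ∈ X, d (x a) v = 0) → ∀ v ∈ X, d v = 0
  g3 : ∃ c ∈ SkF S, c ≠ 0 ∧ ∀ v ∈ X, c v = 0

theorem Inp.good_bot (I : Inp κ N b M q S x φ) : Good N M S x A ⊥ := by
  refine ⟨noHom_bot S M, ?_, ?_⟩
  · intro d _ _ v hv
    rw [(Submodule.mem_bot F).1 hv, map_zero]
  · obtain ⟨c, hc, hc0⟩ := I.hC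
    refine ⟨c, hc, hc0, fun v hv => ?_⟩
    rw [(Submodule.mem_bot F).1 hv, map_zero]

/-- the input for a good quotient -/
theorem Inp.quo (I : Inp κ N b M q S x φ) {X : Submodule F U} (G : Good N M S x A X) :
    Inp κ N b M q (S.quo X) (X.mkQ ∘ₗ x) φ where
  hκ := I.hκ
  oN := I.oN
  oM := I.oM
  nil := I.nil
  mx := (mor_mkQ S X).comp I.mx
  mφ := I.mφ
  hφ := I.hφ
  φφ := I.φφ
  ext := noExt_quo I.hκ G.g1 I.ext
  hC := by
    obtain ⟨c, hc, hc0, hcX⟩ := G.g3
    obtain ⟨c', hc', h⟩ := exists_descend hc hcX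
    refine ⟨c', hc', fun h0 => hc0 ?_⟩
    apply LinearMap.ext
    intro u
    apply LinearMap.ext
    intro v
    rw [← h, h0]; rfl
  hz := by
    intro z hz
    obtain ⟨c, hc, hcz⟩ := I.hz ((LinearMap.lcomp F F X.mkQ) ∘ₗ z) (fun p a c e u he hu =>
      hz p a c e _ he ((S.ch p).mkQ_mem_quo X hu))
    have hcz' : ∀ e u, z e (X.mkQ u) = c (x e) u := hcz
    have hcX : ∀ v ∈ X, c v = 0 := by
      apply G.g2 c hc
      intro a _ v hv
      rw [← hcz', (mkQ_eq_zero_iff (X := X)).2 hv, map_zero]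
    obtain ⟨c', hc', h⟩ := exists_descend hc hcX
    refine ⟨c', hc', fun e u => ?_⟩
    obtain ⟨u, rfl⟩ := X.mkQ_surjective u
    rw [hcz']
    exact (h _ _).symm
  inj := by
    intro c hc h
    have h1 := I.inj _ (skF_pull (S := S) hc) h
    apply LinearMap.ext
    intro u
    obtain ⟨u, rfl⟩ := X.mkQ_surjective u
    apply LinearMap.ext
    intro v
    obtain ⟨v, rfl⟩ := X.mkQ_surjective v
    have h2 := LinearMap.congr_fun (LinearMap.congr_fun h1 u) v
    exact h2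

/-- a subspace that is good for a good quotient pulls back to a good subspace -/
theorem Good.comap (I : Inp κ N b M q S x φ) {X : Submodule F U} (G : Good N M S x A X)
    {Y : Submodule F (U ⧸ X)} (G' : Good N M (S.quo X) (X.mkQ ∘ₗ x) A Y) :
    Good N M S x A (Y.comap X.mkQ) := by
  have hXY : X ≤ Y.comap X.mkQ := by
    intro v hv
    show X.mkQ v ∈ Y
    rw [(mkQ_eq_zero_iff (X := X)).2 hv]; exact zero_mem _
  refine ⟨?_, ?_, ?_⟩
  · intro f hf
    have h0 : KMor (fun _ => 0) ((S.quo X).sub Y) (S.quo X) Y.subtype :=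
      kMor_zero.2 (mor_subtype (S.quo X) Y)
    have h1 := noHom_of_cover (fun _ => 0) hXY G.g1 hf (K := (S.quo X).sub Y)
      (fun g hg => G'.g1 g (kMor_zero.1 hg)) h0 (fun t y hy => by
        show X.mkQ y ∈ Y
        rw [hy]; exact t.2)
    apply LinearMap.ext
    rintro ⟨y, hy⟩
    exact h1 ⟨X.mkQ y, hy⟩ ⟨y, hy⟩ rfl
  · intro d hd h v hv
    have hdX := G.g2 d hd fun a ha v hv => h a ha v (hXY hv)
    obtain ⟨d', hd', hdd⟩ := exists_descend hd hdX
    have h1 := G'.g2 d' hd' (by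
      intro a ha w hw
      obtain ⟨w, rfl⟩ := X.mkQ_surjective w
      show d' (X.mkQ (x a)) (X.mkQ w) = 0
      rw [hdd]
      exact h a ha w hw) (X.mkQ v) hv
    apply LinearMap.ext
    intro u
    rw [← hdd, h1]; rfl
  · obtain ⟨c, hc, hc0, hcY⟩ := G'.g3
    refine ⟨_, skF_pull (S := S) hc, fun h0 => hc0 ?_, fun v hv => ?_⟩
    · apply LinearMap.ext
      intro u
      obtain ⟨u, rfl⟩ := X.mkQ_surjective u
      apply LinearMap.ext
      intro v
      obtain ⟨v, rfl⟩ := X.mkQ_surjective v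
      exact LinearMap.congr_fun (LinearMap.congr_fun h0 u) v
    · apply LinearMap.ext
      intro u
      show c (X.mkQ v) (X.mkQ u) = 0
      rw [hcY _ hv]; rfl

open Vale.Agent.P182.H62 in
/-- the operators `c u = (A_u c) x` -/
theorem Inp.op (I : Inp κ N b M q S x φ) (hA : Lg N M A) {u : A →ₗ[F] U}
    (hu : Mor (N.sub A) S u) {c : LinearMap.BilinForm F U} (hc : c ∈ SkF S) :
    ∃ c' ∈ SkF S, ∀ (a : A) (v : U), c (u a) v = c' (x a) v := by
  have h1 : h1 ((N.quo A).hom S.du).lat = 0 :=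
    (noExt_iff I.hκ).1 (noExt_quo_du I.oM hA I.ext)
  have h2 : Mor (N.sub A) S.du ((Du.equiv (F := F) (E := U)).symm.toLinearMap ∘ₗ c ∘ₗ u) := by
    intro p a e he
    rw [Bun.mem_du_ch]
    intro b' v hv
    have := hc.2 p a b' _ _ (hu p a e he) hv
    rwa [add_comm] at this
  obtain ⟨g, hg, hgc⟩ := exists_extension h1 h2
  obtain ⟨c', hc', h⟩ := I.hz ((Du.equiv (F := F) (E := U)).toLinearMap ∘ₗ g)
    fun p a c' e v he hv => by
      have h3 := hg p a e he
      rw [Bun.mem_du_ch] at h3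
      have h4 := h3 c' v hv
      rwa [add_comm] at h4
  refine ⟨c', hc', fun a v => ?_⟩
  rw [← h]
  have h5 := hgc a
  show _ = g a v
  rw [h5]
  rfl

open Vale.Agent.P182.H62 in
theorem mem_skD {c : U →ₗ[F] Du F U} : c ∈ skD S ↔
    ((Du.equiv (F := F) (E := U)).toLinearMap ∘ₗ c : LinearMap.BilinForm F U) ∈ SkF S := Iff.rfl

open Vale.Agent.P182.H62 in
/-- a common eigenvector -/
theorem Inp.eig [IsAlgClosed k] (I : Inp κ N b M q S x φ) (hA : Lg N M A) :
    ∃ c ∈ SkF S, c ≠ 0 ∧ ∀ u : A →ₗ[F] U, Mor (N.sub A) S u →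
      ∃ μ : k, ∀ (a : A) (v : U), c (u a) v = μ • c (x a) v := by
  have hfin := finite_skD S
  let β : Du F U →ₗ[F] U →ₗ[F] F := (Du.equiv (F := F) (E := U)).toLinearMap
  have hne : skD S ≠ ⊥ := by
    obtain ⟨c, hc, hc0⟩ := I.hC
    intro h
    have h1 : (Du.equiv (F := F) (E := U)).symm.toLinearMap ∘ₗ c ∈ skD S := hc
    rw [h, Submodule.mem_bot] at h1
    apply hc0
    apply LinearMap.ext
    intro u
    apply LinearMap.ext
    intro v
    have h2 := LinearMap.congr_fun h1 u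
    have h3 : ((Du.equiv (F := F) (E := U)).symm (c u)) v = (0 : Du F U) v := by
      exact congrArg (fun z : Du F U => z v) h2
    simpa using h3
  obtain ⟨c, hc, hc0, h⟩ := H899.exists_common (k := k) β (skD S) (skD S)
    (fun c hc s t => hc.1 s t) le_rfl hne (x ∘ₗ A.subtype)
    (by
      intro d hd hdx
      have h1 := I.xi hA (mem_skD.1 hd) (fun e he e' he' => hdx ⟨e, he⟩ ⟨e', he'⟩)
      apply LinearMap.ext
      intro u
      apply Du.ext
      intro v
      exact LinearMap.congr_fun (LinearMap.congr_fun h1 u) v)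
    {u | Mor (N.sub A) S u}
    (by
      intro u hu c hc
      obtain ⟨c', hc', h1⟩ := I.op hA hu (mem_skD.1 hc)
      refine ⟨(Du.equiv (F := F) (E := U)).symm.toLinearMap ∘ₗ c', hc', fun a => ?_⟩
      apply Du.ext
      intro v
      exact h1 a v)
  refine ⟨_, mem_skD.1 hc, fun h0 => hc0 ?_, fun u hu => ?_⟩
  · apply LinearMap.ext
    intro u
    apply Du.ext
    intro v
    exact LinearMap.congr_fun (LinearMap.congr_fun h0 u) v
  · obtain ⟨μ, hμ⟩ := h u hu
    refine ⟨μ, fun a v => ?_⟩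
    have h1 := congrArg (fun z : Du F U => z v) (hμ a)
    have h2 : (μ • c) (x a) v = μ • c (x a) v := by
      rw [LinearMap.smul_apply, ← algebraMap_smul F μ (c (x a)), Du.smul_apply, Algebra.smul_def]
    exact h1.trans h2

/-- morphisms `N / A → S` are killed by every skew form -/
theorem Inp.kill_w (I : Inp κ N b M q S x φ) (hA : Lg N M A) {w : E ⧸ A →ₗ[F] U}
    (hw : Mor (N.quo A) S w) {d : LinearMap.BilinForm F U} (hd : d ∈ SkF S) (e : E ⧸ A) :
    d (w e) = 0 := by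
  obtain ⟨c', hc', h⟩ := I.hz (d ∘ₗ w ∘ₗ A.mkQ) (fun p a c e u he hu =>
    hd.2 p a c _ _ (hw p a _ ((N.ch p).mkQ_mem_quo A he)) hu)
  have h0 : c' = 0 := by
    apply I.xi hA hc'
    intro e he e' _
    rw [← h]
    show d (w (A.mkQ e)) (x e') = 0
    rw [(mkQ_eq_zero_iff (X := A)).2 he, map_zero, map_zero]
    rfl
  obtain ⟨e, rfl⟩ := A.mkQ_surjective e
  apply LinearMap.ext
  intro v
  have h1 := h e v
  rw [h0] at h1
  exact h1

/-- the adjoint of `φ` -/
theorem Inp.exists_φs (I : Inp κ N b M q S x φ) :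
    ∃ φs : W →ₗ[F] E, ∀ w e, b (φs w) e = q w (φ e) :=
  ⟨rep b I.oN.nd ∘ₗ (LinearMap.compl₂ q φ), fun w e => rep_spec I.oN.nd _ e⟩

/-- a multiple of `φ` that kills `A^⊥` is zero -/
theorem Inp.φ_perp (I : Inp κ N b M q S x φ) (hA : Lg N M A) {c : k}
    (h : ∀ n ∈ H533.perp b A, c • φ n = 0) : c • φ = 0 := by
  obtain ⟨φs, hφs⟩ := I.exists_φs
  have h1 : φ ∘ₗ A.subtype = 0 := hA.no _ fun p a x hx => I.mφ p a x hx
  have h2 : ∀ w, φs w ∈ H533.perp b A := by
    intro w a ha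
    rw [hφs]
    have : φ a = 0 := LinearMap.congr_fun h1 ⟨a, ha⟩
    rw [this, map_zero]
  by_cases hc : c = 0
  · rw [hc, zero_smul]
  · exfalso
    apply I.φφ φs hφs
    apply LinearMap.ext
    intro w
    have h3 := h _ (h2 w)
    have h4 : c⁻¹ • (c • φ (φs w)) = 0 := by rw [h3, smul_zero]
    rwa [smul_smul, inv_mul_cancel₀ hc, one_smul] at h4

/-- enlargement by the eigen-directions -/
theorem Inp.good_u (I : Inp κ N b M q S x φ) (hA : Lg N M A) {c0 : LinearMap.BilinForm F U}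
    (hc0 : c0 ∈ SkF S) (hne : c0 ≠ 0) :
    Good N M S x A (⨆ u ∈ {u : A →ₗ[F] U | Mor (N.sub A) S u ∧ ∀ a, c0 (u a) = 0},
      LinearMap.range u) := by
  have hle : ∀ u : A →ₗ[F] U, Mor (N.sub A) S u → (∀ a, c0 (u a) = 0) → ∀ a, u a ∈
      (⨆ u ∈ {u : A →ₗ[F] U | Mor (N.sub A) S u ∧ ∀ a, c0 (u a) = 0},
        LinearMap.range u : Submodule F U) := by
    intro u hu hu' a
    exact Submodule.mem_iSup_of_mem u (Submodule.mem_iSup_of_mem ⟨hu, hu'⟩ ⟨a, rfl⟩)
  refine ⟨?_, ?_, ?_⟩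
  · intro f hf
    have h1 : (⨆ u ∈ {u : A →ₗ[F] U | Mor (N.sub A) S u ∧ ∀ a, c0 (u a) = 0},
        LinearMap.range u : Submodule F U) ≤ (LinearMap.ker f).map (Submodule.subtype _) := by
      refine iSup₂_le fun u hu => ?_
      rintro _ ⟨a, rfl⟩
      refine ⟨⟨u a, hle u hu.1 hu.2 a⟩, ?_, rfl⟩
      have h2 := hA.no (f ∘ₗ u.codRestrict _ (hle u hu.1 hu.2))
        (fun p c a ha => hf p c _ (hu.1 p c a ha))
      exact LinearMap.congr_fun h2 a
    apply LinearMap.ext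
    rintro ⟨y, hy⟩
    obtain ⟨⟨z, hz⟩, hz1, hz2⟩ := h1 hy
    have : (⟨y, hy⟩ : (⨆ u ∈ {u : A →ₗ[F] U | Mor (N.sub A) S u ∧ ∀ a, c0 (u a) = 0},
        LinearMap.range u : Submodule F U)) = ⟨z, hz⟩ := Subtype.ext hz2.symm
    rw [this]
    exact hz1
  · intro d hd h
    have h1 : (⨆ u ∈ {u : A →ₗ[F] U | Mor (N.sub A) S u ∧ ∀ a, c0 (u a) = 0},
        LinearMap.range u : Submodule F U) ≤ LinearMap.ker d := by
      refine iSup₂_le fun u hu => ?_
      rintro _ ⟨a, rfl⟩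
      obtain ⟨d', hd', hdd⟩ := I.op hA hu.1 hd
      have h0 : d' = 0 := by
        apply I.xi hA hd'
        intro e he e' he'
        rw [← hdd ⟨e, he⟩ (x e'), hd.1, h e' he' _ (hle u hu.1 hu.2 _), neg_zero]
      rw [LinearMap.mem_ker]
      apply LinearMap.ext
      intro v
      rw [hdd, h0]; rfl
    exact fun v hv => LinearMap.mem_ker.1 (h1 hv)
  · refine ⟨c0, hc0, hne, ?_⟩
    have h1 : (⨆ u ∈ {u : A →ₗ[F] U | Mor (N.sub A) S u ∧ ∀ a, c0 (u a) = 0},
        LinearMap.range u : Submodule F U) ≤ LinearMap.ker c0 := by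
      refine iSup₂_le fun u hu => ?_
      rintro _ ⟨a, rfl⟩
      exact hu.2 a
    exact fun v hv => LinearMap.mem_ker.1 (h1 hv)

/-- enlargement by the images of `N / A` -/
theorem Inp.good_w (I : Inp κ N b M q S x φ) (hA : Lg N M A) :
    Good N M S x A (⨆ w ∈ {w : E ⧸ A →ₗ[F] U | Mor (N.quo A) S w}, LinearMap.range w) := by
  have hle : ∀ w : E ⧸ A →ₗ[F] U, Mor (N.quo A) S w → ∀ e, w e ∈
      (⨆ w ∈ {w : E ⧸ A →ₗ[F] U | Mor (N.quo A) S w}, LinearMap.range w : Submodule F U) := by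
    intro u hu a
    exact Submodule.mem_iSup_of_mem u (Submodule.mem_iSup_of_mem hu ⟨a, rfl⟩)
  have hker : ∀ d ∈ SkF S, ∀ v ∈ (⨆ w ∈ {w : E ⧸ A →ₗ[F] U | Mor (N.quo A) S w},
      LinearMap.range w : Submodule F U), d v = 0 := by
    intro d hd
    have h1 : (⨆ w ∈ {w : E ⧸ A →ₗ[F] U | Mor (N.quo A) S w},
        LinearMap.range w : Submodule F U) ≤ LinearMap.ker d := by
      refine iSup₂_le fun u hu => ?_
      rintro _ ⟨a, rfl⟩
      exact I.kill_w hA hu hd a
    exact fun v hv => LinearMap.mem_ker.1 (h1 hv)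
  refine ⟨?_, fun d hd _ => hker d hd, ?_⟩
  · intro f hf
    have h1 : (⨆ w ∈ {w : E ⧸ A →ₗ[F] U | Mor (N.quo A) S w},
        LinearMap.range w : Submodule F U) ≤ (LinearMap.ker f).map (Submodule.subtype _) := by
      refine iSup₂_le fun u hu => ?_
      rintro _ ⟨a, rfl⟩
      refine ⟨⟨u a, hle u hu a⟩, ?_, rfl⟩
      have h2 : Mor N M ((f ∘ₗ u.codRestrict _ (hle u hu)) ∘ₗ A.mkQ) := fun p c e he =>
        hf p c _ (hu p c _ ((N.ch p).mkQ_mem_quo A he))
      obtain ⟨c, hc⟩ := I.hφ _ h2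
      have h3 : c • φ = 0 := by
        apply I.φ_perp hA
        intro n hn
        have h4 : u (A.mkQ n) = 0 := kill I.oN I.oM hA I.ext ((hu : Mor _ _ _).comp (mor_mkQ N A)) n hn
        have h5 := LinearMap.congr_fun hc n
        rw [LinearMap.smul_apply] at h5
        rw [← h5]
        show f ⟨u (A.mkQ n), _⟩ = 0
        have h6 : (⟨u (A.mkQ n), hle u hu _⟩ : (⨆ w ∈ {w : E ⧸ A →ₗ[F] U | Mor (N.quo A) S w},
            LinearMap.range w : Submodule F U)) = 0 := Subtype.ext h4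
        rw [h6, map_zero]
      rw [h3] at hc
      obtain ⟨e, rfl⟩ := A.mkQ_surjective a
      exact LinearMap.congr_fun hc e
    apply LinearMap.ext
    rintro ⟨y, hy⟩
    obtain ⟨⟨z, hz⟩, hz1, hz2⟩ := h1 hy
    have : (⟨y, hy⟩ : (⨆ w ∈ {w : E ⧸ A →ₗ[F] U | Mor (N.quo A) S w},
        LinearMap.range w : Submodule F U)) = ⟨z, hz⟩ := Subtype.ext hz2.symm
    rw [this]
    exact hz1
  · obtain ⟨c, hc, hc0⟩ := I.hC
    exact ⟨c, hc, hc0, hker c hc⟩

/-- THE REDUCTION -/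
theorem reduce [IsAlgClosed k] (I : Inp κ N b M q S x φ) (hA : Lg N M A) :
    ∃ X : Submodule F U, Inp κ N b M q (S.quo X) (X.mkQ ∘ₗ x) φ ∧
      Red N (S.quo X) (X.mkQ ∘ₗ x) A := by
  classical
  have hne : ∃ n, ∃ X, Good N M S x A X ∧ finrank F U - finrank F X = n :=
    ⟨_, ⊥, I.good_bot, rfl⟩
  obtain ⟨X, hX, hXn⟩ := Nat.find_spec hne
  have I' := I.quo hX
  have hbot : ∀ Y : Submodule F (U ⧸ X), Good N M (S.quo X) (X.mkQ ∘ₗ x) A Y → Y = ⊥ := by
    intro Y hY
    have h1 := Nat.find_min' hne ⟨_, hX.comap I hY, rfl⟩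
    have hXY : X ≤ Y.comap X.mkQ := by
      intro v hv
      show X.mkQ v ∈ Y
      rw [(mkQ_eq_zero_iff (X := X)).2 hv]; exact zero_mem _
    have h3 := Submodule.finrank_le (Y.comap X.mkQ)
    have h4 := Submodule.finrank_mono hXY
    have h5 : finrank F X = finrank F (Y.comap X.mkQ) := by omega
    have h6 : X = Y.comap X.mkQ := Submodule.eq_of_le_of_finrank_eq hXY h5
    rw [eq_bot_iff]
    intro y hy
    obtain ⟨y, rfl⟩ := X.mkQ_surjective y
    have h7 : y ∈ X := by rw [h6]; exact hy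
    rw [Submodule.mem_bot, mkQ_eq_zero_iff]; exact h7
  refine ⟨X, I', ?_, ?_⟩
  · intro u hu
    obtain ⟨c0, hc0, hc0', h⟩ := I'.eig hA
    obtain ⟨μ, hμ⟩ := h u hu
    have h1 := hbot _ (I'.good_u hA hc0 hc0')
    refine ⟨μ, ?_⟩
    have h2 : Mor (N.sub A) (S.quo X) (u - μ • ((X.mkQ ∘ₗ x) ∘ₗ A.subtype)) := by
      intro p a e he
      refine sub_mem (hu p a e he) (Submodule.smul_mem _ _ ?_)
      exact I'.mx p a _ he
    have h3 : ∀ a, c0 ((u - μ • ((X.mkQ ∘ₗ x) ∘ₗ A.subtype)) a) = 0 := by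
      intro a
      apply LinearMap.ext
      intro v
      rw [LinearMap.sub_apply, map_sub, LinearMap.sub_apply, hμ, LinearMap.smul_apply,
        ← algebraMap_smul F μ (((X.mkQ ∘ₗ x) ∘ₗ A.subtype) a), map_smul, LinearMap.smul_apply,
        algebraMap_smul]
      exact sub_self _
    rw [← sub_eq_zero]
    apply LinearMap.ext
    intro a
    have h4 : (u - μ • ((X.mkQ ∘ₗ x) ∘ₗ A.subtype)) a ∈ (⊥ : Submodule F (U ⧸ X)) := by
      rw [← h1]
      exact Submodule.mem_iSup_of_mem _ (Submodule.mem_iSup_of_mem ⟨h2, h3⟩ ⟨a, rfl⟩)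
    exact (Submodule.mem_bot F).1 h4
  · intro w hw
    have h1 := hbot _ (I'.good_w hA)
    apply LinearMap.ext
    intro e
    have h4 : w e ∈ (⊥ : Submodule F (U ⧸ X)) := by
      rw [← h1]
      exact Submodule.mem_iSup_of_mem _ (Submodule.mem_iSup_of_mem hw ⟨e, rfl⟩)
    exact (Submodule.mem_bot F).1 h4

end Vale.Agent.P182.H735
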